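import Vale.Agent.P144T.Defs

/-!
Spinors in general finite sets: the local relations, sums of squares, bounds of the `H`-function.
-/

namespace Vale.Agent.P144T.A

open Filter Topology Complex Vale.Agent.P144
open Vale.Agent.P144.H170 (Pt pt nf bx D SRel tauF theF RelOn sum_sq_grad lap_AL436 Hs_upper
  tauF_step theF_step)

section data

variable {ι κ κ' : Type} [Fintype κ] [Fintype κ'] {r : κ → ι → Site} {v : κ' → ι → Site}
  {l : Filter ι} {a : ι → ℝ} {N : ι → Finset Site} {A B C E : ι → Pt → ℝ}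

/-- The relations of the finite sets hold locally eventually in `W`. -/
def RelB (l : Filter ι) (a : ι → ℝ) (N : ι → Finset Site) (W : Set ℂ) (r : κ → ι → Site)
    (v : κ' → ι → Site) (A B C E : ι → Pt → ℝ) : Prop :=
  ∀ z ∈ W, ∀ᶠ kx in nf l a z, SRel (fun x y => (x, y) ∈ N kx.1) (tauF fun p => r p kx.1)
    (theF fun q => v q kx.1) (A kx.1) (B kx.1) (C kx.1) (E kx.1) kx.2.1 kx.2.2

theorem RelB.relOn {D₀ : Set ℂ} (ha : Tendsto a l (𝓝[>] 0)) (hN : Appr D₀ l a N) {W : Set ℂ}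
    (h : RelB l a N W r v A B C E) : RelOn l a (W ∩ D₀) r v A B C E := by
  intro z hz
  filter_upwards [h z hz.1, hN.near ha hz.2 1] with kx g1 g2
  obtain ⟨k, x, y⟩ := kx
  simp only at g1 g2
  have m1 := g2 (x, y + 1) (by simp) (by simp)
  have m2 := g2 (x + 1, y + 1) (by simp) (by simp)
  have m3 := g2 (x + 1, y) (by simp) (by simp)
  have k1 := g1.V m1 m2
  have k2 := g1.H m3 m2
  unfold H170.Rel
  simp only [Prod.mk_add_mk, add_zero]
  exact ⟨k1.1, k1.2, k2.1, k2.2⟩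

end data

section green

variable {κ : Type} [Fintype κ] {Λ : Finset Site} {Hs Hf : Site → ℝ} {n : ℕ}

/-- The extension vanishes outside the diamond. -/
theorem hat_far (hb : HB Λ Hs Hf) (hΛ : ∀ x ∈ Λ, |x.1| + |x.2| + 1 ≤ (n : ℤ)) {x : Site}
    (hx : x ∉ dia n) : hat Λ Hs x = 0 := by
  obtain ⟨i, j⟩ := x
  rw [AL.mem_dia] at hx
  have k : ∀ y : Site, |y.1 - i| + |y.2 - j| ≤ 1 → y ∉ Λ := fun y hy hyΛ => by
    have h1 := hΛ y hyΛ
    have h2 := abs_sub_abs_le_abs_sub i y.1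
    have h3 := abs_sub_abs_le_abs_sub j y.2
    rw [abs_sub_comm] at h2 h3
    lia
  have z : ∀ y : Site, |y.1 - i| + |y.2 - j| ≤ 1 → Hs y = 0 := fun y hy =>
    hb.dia (n := n - 1) (fun x hx => by linarith [hΛ x hx]) (by
      have h2 := abs_sub_abs_le_abs_sub i y.1
      have h3 := abs_sub_abs_le_abs_sub j y.2
      rw [abs_sub_comm] at h2 h3
      lia)
  rw [hat_out (k _ (by simp))]
  unfold AL.lap
  rw [z _ (by simp), z _ (by simp), z _ (by simp), z _ (by simp), z _ (by simp)]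
  norm_num

/-- Upper bound of the extension of `Hs` by the Green functions of a larger diamond. -/
theorem hat_upper (hb : HB Λ Hs Hf) (hΛ : ∀ x ∈ Λ, |x.1| + |x.2| + 1 ≤ (n : ℤ)) {v : κ → Site}
    {M : ℝ} (hM : 0 ≤ M)
    (hsub : ∀ x, (∀ q, x ≠ v q) → 0 ≤ AL.lap (hat Λ Hs) x)
    (hlow : ∀ x, -M ≤ AL.lap (hat Λ Hs) x) (x : Site) :
    hat Λ Hs x ≤ M * ∑ q, H436.green (dia n) (v q) x :=
  Hs_upper hM (fun y _ hy => hsub y hy) hlow (fun _ hy => (hat_far hb hΛ hy).le) x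

/-- Lower bound of `Hf` by the Green functions of a larger diamond. -/
theorem Hf_lower (hb : HB Λ Hs Hf) (hΛ : ∀ x ∈ Λ, x ∈ dia n) {r : κ → Site} {M M0 : ℝ} (hM : 0 ≤ M)
    (h0 : ∀ x ∉ Λ, -Hs x ≤ M0) (hsup : ∀ x, (∀ u ∈ AL.cnr x, u ∈ Λ) → (∀ p, x ≠ r p) → AL.lap Hf x ≤ 0)
    (hup : ∀ x, (∀ u ∈ AL.cnr x, u ∈ Λ) → AL.lap Hf x ≤ M) (x : Site) :
    -Hf x ≤ M0 + M * ∑ p, H436.green (dia n) (r p) x := by
  classical
  set Λ' : Finset Site := Λ.filter fun f => ∀ u ∈ AL.cnr f, u ∈ Λ with hΛ'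
  set u : Site → ℝ := fun x => -Hf x - M0 - ∑ p, M * H436.green (dia n) (r p) x with hu
  have key := H436.max_principle (Λ := Λ') (u := u) (fun y hy => ?_) (fun y hy => ?_) x
  · simp only [hu] at key
    rw [← Finset.mul_sum] at key
    linarith
  · obtain ⟨hy0, hy1⟩ := Finset.mem_filter.1 hy
    have e1 : H436.lap u y = -H436.lap Hf y - ∑ p, M * H436.lap (H436.green (dia n) (r p)) y := by
      have a1 : H436.lap u y = H436.lap (fun y => -Hf y) y -
          H436.lap (fun y => ∑ p, M * H436.green (dia n) (r p) y) y := by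
        unfold H436.lap; simp only [hu]; ring
      rw [a1, H436.lap_sum]
      congr 1
      · unfold H436.lap; ring
      · exact Finset.sum_congr rfl fun p _ => by rw [H436.lap_mul]
    have e2 : ∑ p, M * H436.lap (H436.green (dia n) (r p)) y =
        -∑ p, M * (if y = r p then (1:ℝ) else 0) := by
      rw [← Finset.sum_neg_distrib]
      refine Finset.sum_congr rfl fun p _ => ?_
      rw [H436.lap_green (hΛ y hy0)]; ring
    rw [e1, e2, ← lap_AL436]
    by_cases hp : ∀ p, y ≠ r p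
    · have e : ∑ k, M * (if y = r k then (1:ℝ) else 0) = 0 :=
        Finset.sum_eq_zero fun k _ => by rw [if_neg (hp k), mul_zero]
      rw [e]
      linarith [hsup y hy1 hp]
    · push Not at hp
      obtain ⟨q, hq⟩ := hp
      have e : M ≤ ∑ k, M * (if y = r k then (1:ℝ) else 0) := by
        have h1 := Finset.single_le_sum (f := fun k => M * (if y = r k then (1:ℝ) else 0))
          (fun k _ => by split_ifs <;> simp [hM]) (Finset.mem_univ q)
        simp only [if_pos hq, mul_one] at h1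
        exact h1
      linarith [hup y hy1]
  · have h1 : -Hf y ≤ M0 := by
      by_contra hc
      have hin : ∀ u ∈ AL.cnr y, u ∈ Λ := fun u hu => by
        by_contra hu'
        exact hc (by rw [hb.zero y u hu hu']; exact h0 u hu')
      exact hy (Finset.mem_filter.2 ⟨hin y (self_cnr y), hin⟩)
    simp only [hu]
    have : 0 ≤ ∑ p, M * H436.green (dia n) (r p) y :=
      Finset.sum_nonneg fun p _ => mul_nonneg hM (H436.green_nonneg _ _ _)
    linarith

end green

/-- The spinor is regular away from the insertions. -/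
theorem reg_of {κ κ' : Type} [Fintype κ] [Fintype κ'] {Λ : Finset Site} {r : κ → Site}
    {v : κ' → Site} {A B C E Hs Hf : Site → ℝ} (h : AL.Spr Λ (tauF r) (theF v) A B C E)
    (hH : IsH A B C E Hs Hf) {x : Site} (h1 : ∀ p, x ≠ r p) (h2 : ∀ q, x ≠ v q) :
    Reg Λ Hs Hf x :=
  Reg.of_spr h hH (theF_step h2) (tauF_step h1)

/-- Bounds of both `H`-functions by the Green functions of a larger diamond. -/
theorem H_bounds {κ κ' : Type} [Fintype κ] [Fintype κ'] {Λ : Finset Site} {n : ℕ} {r : κ → Site}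
    {v : κ' → Site} {A B C E Hs Hf : Site → ℝ} {M M0 : ℝ}
    (h0 : ∀ x ∉ Λ, -Hs x ≤ M0) (hΛ : ∀ x ∈ Λ, |x.1| + |x.2| + 1 ≤ (n : ℤ))
    (h : AL.Spr Λ (tauF r) (theF v) A B C E) (hH : IsH A B C E Hs Hf)
    (h1 : ∀ T : Finset Site, ∑ w ∈ T, |AL.lap Hs w| ≤ M)
    (h2 : ∀ T : Finset Site, ∑ w ∈ T, |AL.lap Hf w| ≤ M) (x : Site) :
    Hs x ≤ M * ∑ q, H436.green (dia n) (v q) x ∧
    -Hf x ≤ M0 + M * ∑ p, H436.green (dia n) (r p) x ∧ Hf x ≤ Hs x := by
  have hM : 0 ≤ M := by simpa using h1 ∅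
  have b1 : ∀ x, |AL.lap Hs x| ≤ M := fun x => by simpa using h1 {x}
  have b2 : ∀ x, |AL.lap Hf x| ≤ M := fun x => by simpa using h2 {x}
  have hb := HB.of_spr h hH
  refine ⟨(hb.le_hat x).trans (hat_upper hb hΛ hM (fun y hyv => ?_) (fun y => ?_) x),
    Hf_lower hb (fun y hy => ?_) hM h0 (fun y hy hyr => ?_) (fun y _ => (abs_le.1 (b2 y)).2) x,
    hb.le x x (self_cnr x)⟩
  · exact (sub_nonneg.2 (hb.le_hat y)).trans (lap_hat h hH (theF_step hyv))
  · by_cases hy : y ∈ Λ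
    · have c1 := (abs_le.1 (b1 y)).1
      have c2 := hb.le_hat (y.1 + 1, y.2)
      have c3 := hb.le_hat (y.1 - 1, y.2)
      have c4 := hb.le_hat (y.1, y.2 + 1)
      have c5 := hb.le_hat (y.1, y.2 - 1)
      unfold AL.lap at c1 ⊢
      rw [hat_in hy]
      linarith
    · linarith [hb.le_hat y, hb.lap_hat_out hy]
  · obtain ⟨i, j⟩ := y
    have := hΛ _ hy
    rw [AL.mem_dia]
    simp only at this
    lia
  · obtain ⟨i, j⟩ := y
    exact lapf_nonpos h hH (hy (i, j) (by simp [AL.mem_cnr])) (hy (i + 1, j) (by simp [AL.mem_cnr]))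
      (hy (i, j + 1) (by simp [AL.mem_cnr])) (hy (i + 1, j + 1) (by simp [AL.mem_cnr]))
      (tauF_step hyr)

end Vale.Agent.P144T.A
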