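import Vale.Agent.P144T.A.Main

/-!
The limit of the spinors with one inserted spin in general domains.
-/

namespace Vale.Agent.P144T.A

open Filter Topology Complex Metric Vale.Agent.P144
open Vale.Agent.P144.H170 (Pt pt rM tauF theF tauR_rM theA_single rM_nodup mem_rM)
open Vale.Agent.P144G (Exg)

/-- The exceptional points of the spinor with the source at `(v, v)`. -/
theorem Xj_exg {Λ R' : Finset Site} {R : Multiset Site} {v : Site} (hR : R.Nodup)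
    (hR' : ∀ x, x ∈ R' ↔ x ∈ R)
    (hv : ∀ x : Site, |x.1 - v.1| ≤ 1 → |x.2 - v.2| ≤ 1 → x ∈ Λ)
    (hr : ∀ r ∈ R, ∀ x : Site, |x.1 - r.1| ≤ 2 → |x.2 - r.2| ≤ 2 → x ∈ Λ)
    (hc : ∀ r ∈ R, v ∉ AL.cnr r) : Exg Λ (AL.tauR R) (AL.theA {v}) {v} R' R' := by
  refine ⟨fun i j hij => AL.theA_step (by simpa using hij),
    fun i j hij => AL.tauR_step fun h => hij ((hR' _).2 h),
    fun w hw => ?_, fun w hw => hr w ((hR' _).1 hw), subset_rfl, fun f hf => ?_,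
    fun f hf w hw hw' => ?_⟩
  · rw [Finset.mem_singleton] at hw; subst hw; exact hv
  · exact AL.tauR_branch hR (i := f.1) (j := f.2) ((hR' _).1 hf)
  · rw [Finset.mem_singleton] at hw'; subst hw'; exact hc f ((hR' _).1 hf) hw

/-- The masses of the `H`-function of the spinor with the source at `(v, v)`. -/
theorem Xj_mass {Λ : Finset Site} {R : Multiset Site} {v : Site} (hR : R.Nodup)
    (hv : ∀ x : Site, |x.1 - v.1| ≤ 1 → |x.2 - v.2| ≤ 1 → x ∈ Λ)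
    (hr : ∀ r ∈ R, ∀ x : Site, |x.1 - r.1| ≤ 2 → |x.2 - r.2| ≤ 2 → x ∈ Λ)
    (hc : ∀ r ∈ R, v ∉ AL.cnr r) :
    ∃ Hs Hf : Site → ℝ, IsH (AL.xA Λ R {v} (AL.zj Λ R v))
      (AL.xB Λ R {v} (AL.zj Λ R v)) (AL.xC Λ R {v} (AL.zj Λ R v))
      (AL.xD Λ R {v} (AL.zj Λ R v)) Hs Hf ∧
      ∀ T : Finset Site, ∑ w ∈ T, |AL.lap Hs w| + ∑ w ∈ T, |AL.lap Hf w| ≤ 37730 := by
  classical
  have hvd : v ∈ Λ := hv v (by simp) (by simp)
  have h := AL.spr_QQ (Λ := Λ) R (A := {v}) (by simpa using hvd) (AL.zj Λ R v)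
  obtain ⟨Hs, Hf, hH⟩ := exists_H h
  have hE := Xj_exg (R' := R.toFinset) hR (fun x => Multiset.mem_toFinset) hv hr hc
  refine ⟨Hs, Hf, hH, fun T => ?_⟩
  obtain ⟨h1, h2⟩ := mass h hH hE T
  rw [Finset.sum_singleton] at h1 h2
  rw [Finset.sdiff_self, Finset.sum_empty] at h2
  have h3 := AL.sqS_Xj Λ R v hvd
  linarith

/-- The spinor with the source at `(v, v)` satisfies the relations. -/
theorem spr_jX {κ : Type} [Fintype κ] {Λ : Finset Site} {r : κ → Site} {v : Site} (h : v ∈ Λ) :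
    AL.Spr Λ (tauF r) (theF fun _ : Unit => v) (jA Λ r v) (jB Λ r v) (jC Λ r v) (jD Λ r v) := by
  have h1 := AL.spr_QQ (Λ := Λ) (rM r) (A := {v}) (by simpa using h) (AL.zj Λ (rM r) v)
  rw [tauR_rM, theA_single] at h1
  exact h1

/-- **The limit of the spinor with one inserted spin.** -/
theorem xj (Ω : Dom) : SXj Ω := by
  intro ι κ _ l a N r v ζ ω ha hN hr hv hζ hω hinj hc
  have d1 := hN.deep ha hω hv 1
  have d2 : ∀ᶠ k in l, ∀ p, ∀ y : Pt, |y.1 - (r p k).1| ≤ (2 : ℕ) → |y.2 - (r p k).2| ≤ (2 : ℕ) →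
      y ∈ N k := eventually_all.2 fun p => hN.deep ha (hζ p) (hr p) 2
  have key : ∀ᶠ k in l, ∃ Hs Hf : Site → ℝ, IsH (jA (N k) (fun p => r p k) (v k))
      (jB (N k) (fun p => r p k) (v k)) (jC (N k) (fun p => r p k) (v k))
      (jD (N k) (fun p => r p k) (v k)) Hs Hf ∧
      ∀ T : Finset Site, ∑ w ∈ T, |AL.lap Hs w| + ∑ w ∈ T, |AL.lap Hf w| ≤ 37730 := by
    filter_upwards [d1, d2, hinj, hc] with k k1 k2 k3 k4
    obtain ⟨Hs, Hf, h1, h2⟩ := Xj_mass (R := rM fun p => r p k) (v := v k) (rM_nodup k3) k1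
      (fun x hx => by
        obtain ⟨p, rfl⟩ := mem_rM.1 hx
        exact k2 p)
      (fun x hx => by
        obtain ⟨p, rfl⟩ := mem_rM.1 hx
        exact k4 p)
    exact ⟨Hs, Hf, h1, h2⟩
  obtain ⟨Hs, hHs⟩ := key.choice
  obtain ⟨Hf, hHf⟩ := hHs.choice
  have hH := hHf.mono fun k h => h.1
  have hS : ∀ᶠ k in l, AL.Spr (N k) (tauF fun p => r p k) (theF fun _ : Unit => v k)
      (jA (N k) (fun p => r p k) (v k)) (jB (N k) (fun p => r p k) (v k))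
      (jC (N k) (fun p => r p k) (v k)) (jD (N k) (fun p => r p k) (v k)) :=
    (hN.mem ha hω hv).mono fun k k1 => spr_jX k1
  have hM1 : ∀ᶠ k in l, ∀ T : Finset Site, ∑ w ∈ T, |AL.lap (Hs k) w| ≤ 37730 := by
    filter_upwards [hHf] with k h T
    have h1 := h.2 T
    have h2 : 0 ≤ ∑ w ∈ T, |AL.lap (Hf k) w| := Finset.sum_nonneg fun _ _ => abs_nonneg _
    linarith
  have hM2 : ∀ᶠ k in l, ∀ T : Finset Site, ∑ w ∈ T, |AL.lap (Hf k) w| ≤ 37730 := by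
    filter_upwards [hHf] with k h T
    have h1 := h.2 T
    have h2 : 0 ≤ ∑ w ∈ T, |AL.lap (Hs k) w| := Finset.sum_nonneg fun _ _ => abs_nonneg _
    linarith
  obtain ⟨q, h, hG⟩ := glim_exists Ω (v := fun _ : Unit => v) (ω := fun _ : Unit => ω) ha hN hr
    (fun _ => hv) hζ (fun _ => hω) hS hH hM1 hM2
  exact ⟨Hs, Hf, q, h, hH, hG⟩

end Vale.Agent.P144T.A
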